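import Vale.Agent.P354CB.Ez

/-!
First global consequences of the existence of a Cauchy surface.
-/

open Set Filter Topology

namespace Vale.Agent.P354CB55

open Vale.Agent.P354n
open Vale.Agent.P354CB

variable {M : Spc} {S : Set M.pt}

/-- The Cauchy property on any interval. -/
theorem cau (B : B0) (H : GH0 M S) (a b : ℝ) (c : ℝ → M.pt) (hab : a < b) (hc : Cv M (Ioo a b) c)
    (hp : NoP c a univ) (hf : NoF c b univ) : ∃! t, t ∈ Ioo a b ∧ c t ∈ S := by
  have l : 0 < b - a := sub_pos.2 hab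
  have m : MapsTo (fun x : ℝ => a + x * (b - a)) (Ioo 0 1) (Ioo a b) := fun x hx =>
    ⟨by nlinarith [hx.1], by nlinarith [hx.2]⟩
  have e : ∀ t : ℝ, a + (t - a) / (b - a) * (b - a) = t := fun t => by
    rw [div_mul_cancel₀ _ l.ne']; ring
  have k : Continuous fun t : ℝ => (t - a) / (b - a) := by fun_prop
  have tf : Tendsto (fun t : ℝ => (t - a) / (b - a)) (𝓝[<] b) (𝓝[<] 1) := by
    refine tendsto_nhdsWithin_iff.2 ⟨?_, ?_⟩
    · simpa only [div_self l.ne'] using (k.tendsto b).mono_left nhdsWithin_le_nhds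
    · filter_upwards [self_mem_nhdsWithin] with t ht
      exact (div_lt_one l).2 (sub_lt_sub_right ht a)
  have tp : Tendsto (fun t : ℝ => (t - a) / (b - a)) (𝓝[>] a) (𝓝[>] 0) := by
    refine tendsto_nhdsWithin_iff.2 ⟨?_, ?_⟩
    · simpa only [sub_self, zero_div] using (k.tendsto a).mono_left nhdsWithin_le_nhds
    · filter_upwards [self_mem_nhdsWithin] with t ht
      exact div_pos (sub_pos.2 ht) l
  obtain ⟨x, ⟨x1, x2⟩, x3⟩ := H.cauchy _ (B.aff H.st l isOpen_Ioo.uniqueDiffOn m hc) fun x =>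
    ⟨fun h => hf x trivial ((h.comp tf).congr fun t => congrArg c (e t)),
      fun h => hp x trivial ((h.comp tp).congr fun t => congrArg c (e t))⟩
  refine ⟨_, ⟨m x1, x2⟩, fun t ht => ?_⟩
  have := x3 ((t - a) / (b - a)) ⟨⟨div_pos (sub_pos.2 ht.1.1) l,
    (div_lt_one l).2 (sub_lt_sub_right ht.1.2 a)⟩, by
      show c (a + (t - a) / (b - a) * (b - a)) ∈ S
      rw [e]; exact ht.2⟩
  show t = a + x * (b - a)
  rw [← this, e]

/-- A curve without past end point extends to a curve without end points. -/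
theorem half (L : L1) (H : GH0 M S) {a b : ℝ} {c : ℝ → M.pt} (hab : a < b)
    (hc : Cv M (Ioc a b) c) (hp : NoP c a univ) : ∃ w, Cv M (Ioo a (b + 1)) w ∧
      EqOn w c (Ioc a b) ∧ NoP w a univ ∧ NoF w (b + 1) univ := by
  obtain ⟨m, am, mb⟩ := exists_between hab
  obtain ⟨v, v1, v2, v3⟩ := L.extf M H.st H.sc m b c mb
    (L.b.mono hc (Icc_subset_Ioc_left am) (uniqueDiffOn_Icc mb))
  have b1 : b < b + 1 := lt_add_one b
  refine ⟨fun t => if t ≤ b then c t else v t, L.b.loc fun t ht => ?_, fun t ht => if_pos ht.2,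
    fun x _ h => hp x trivial (h.congr' ?_), fun x _ h => v3 x trivial (h.congr' ?_)⟩
  · rcases lt_or_ge t b with l | l
    · exact ⟨Ioo a b, c, mem_nhdsWithin_of_mem_nhds (Ioo_mem_nhds ht.1 l),
        Ioo_subset_Ioo_right b1.le, L.b.mono hc Ioo_subset_Ioc_self isOpen_Ioo.uniqueDiffOn,
        fun s hs => if_pos hs.2.le⟩
    · refine ⟨Ioo m (b + 1), v, mem_nhdsWithin_of_mem_nhds (Ioo_mem_nhds (mb.trans_le l) ht.2),
        Ioo_subset_Ioo_left am.le, L.b.mono v1 Ioo_subset_Ico_self isOpen_Ioo.uniqueDiffOn,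
        fun s hs => ?_⟩
      show (if s ≤ b then c s else v s) = v s
      split_ifs with h
      · exact (v2 ⟨hs.1.le, h⟩).symm
      · rfl
  · filter_upwards [Ioo_mem_nhdsGT hab] with t ht
    exact if_pos ht.2.le
  · filter_upwards [Ioo_mem_nhdsLT b1] with t ht
    exact if_neg (not_le.2 ht.1)

/-- Every compact curve extends to a curve without end points. -/
theorem ext (L : L1) (H : GH0 M S) (a b : ℝ) (c : ℝ → M.pt) (hab : a < b)
    (hc : Cv M (Icc a b) c) : ∃ w, Cv M (Ioo (a - 1) (b + 1)) w ∧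
      EqOn w c (Icc a b) ∧ NoP w (a - 1) univ ∧ NoF w (b + 1) univ := by
  have H' := L.b.gh0_rev H
  have e1 : (fun t : ℝ => a + b - t) ⁻¹' Icc a b = Icc a b := by
    ext t; simp only [mem_preimage, mem_Icc]
    constructor <;> intro h <;> constructor <;> linarith [h.1, h.2]
  have e2 : (fun t : ℝ => a + b - t) ⁻¹' Ico a (b + 1) = Ioc (a - 1) b := by
    ext t; simp only [mem_preimage, mem_Ico, mem_Ioc]
    constructor <;> intro h <;> constructor <;> linarith [h.1, h.2]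
  have u : Cv (rev M) (Icc a b) fun t => c (a + b - t) := by
    refine (L.b.cv_rev H.st (a + b)).2 ?_
    rw [e1]
    exact L.b.congr hc fun t _ => congrArg c (by ring)
  obtain ⟨v, v1, v2, v3⟩ := L.extf (rev M) H'.st H'.sc a b _ hab u
  have v4 := (L.b.cv_rev H.st (a + b)).1 v1
  rw [e2] at v4
  have tp : Tendsto (fun t : ℝ => a + b - t) (𝓝[<] (b + 1)) (𝓝[>] (a - 1)) := by
    refine tendsto_nhdsWithin_iff.2 ⟨?_, ?_⟩
    · have k : Continuous fun t : ℝ => a + b - t := by fun_prop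
      simpa only [show a + b - (b + 1) = a - 1 by ring] using
        (k.tendsto (b + 1)).mono_left nhdsWithin_le_nhds
    · filter_upwards [self_mem_nhdsWithin] with t ht
      have : t < b + 1 := ht
      show a - 1 < a + b - t
      linarith
  obtain ⟨w, w1, w2, w3, w4⟩ := half L H ((sub_one_lt a).trans hab) v4 fun x _ h =>
    v3 x trivial ((h.comp tp).congr fun t => congrArg v (by ring))
  refine ⟨w, w1, fun t ht => ?_, w3, w4⟩
  rw [w2 ⟨(sub_one_lt a).trans_le ht.1, ht.2⟩]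
  exact (v2 (e1.symm.subset ht)).trans (congrArg c (by ring))

theorem achr (L : L1) (H : GH0 M S) : ∀ s ∈ S, ∀ s' ∈ S, ¬ LL M s s' := by
  rintro _ h0 _ h1 ⟨c, hc, rfl, rfl⟩
  obtain ⟨w, w1, w2, w3, w4⟩ := ext L H 0 1 c one_pos hc
  obtain ⟨t, -, ht⟩ := cau L.b H _ _ w (by norm_num) w1 w3 w4
  have a0 := ht 0 ⟨by norm_num, by rw [w2 (left_mem_Icc.2 zero_le_one)]; exact h0⟩
  have a1 := ht 1 ⟨by norm_num, by rw [w2 (right_mem_Icc.2 zero_le_one)]; exact h1⟩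
  exact zero_ne_one (a0.trans a1.symm)

theorem tri (L : L1) (H : GH0 M S) (x : M.pt) : x ∈ S ∨ x ∈ Fu M S ∨ x ∈ Pa M S := by
  obtain ⟨_, c, hc, rfl, -⟩ := Set.Nonempty.of_closure ⟨x, L.b.nearF H.st x⟩
  obtain ⟨w, w1, w2, w3, w4⟩ := ext L H 0 1 c one_pos hc
  obtain ⟨t, ⟨t1, t2⟩, -⟩ := cau L.b H _ _ w (by norm_num) w1 w3 w4
  rw [← w2 (left_mem_Icc.2 zero_le_one)]
  rcases lt_trichotomy t 0 with l | rfl | l
  · exact .inr (.inl ⟨_, t2, L.b.ll_cv H.st w1 (Icc_subset_Ioo t1.1 (by norm_num)) l⟩)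
  · exact .inl t2
  · exact .inr (.inr ⟨_, t2, L.b.ll_cv H.st w1 (Icc_subset_Ioo (by norm_num) t1.2) l⟩)

theorem nopast (L : L1) (H : GH0 M S) (a b : ℝ) (c : ℝ → M.pt) (hab : a < b)
    (hc : Cv M (Ioc a b) c) (hp : NoP c a univ) : ∃ t ∈ Ioc a b, c t ∈ Pa M S := by
  obtain ⟨w, w1, w2, w3, w4⟩ := half L H hab hc hp
  obtain ⟨s, ⟨s1, s2⟩, -⟩ := cau L.b H _ _ w (hab.trans (lt_add_one b)) w1 w3 w4
  obtain ⟨t, t1, t2⟩ := exists_between (lt_min s1.1 hab)
  have m : t ∈ Ioc a b := ⟨t1, (lt_min_iff.1 t2).2.le⟩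
  exact ⟨t, m, _, s2, w2 m ▸ L.b.ll_cv H.st w1 (Icc_subset_Ioo t1 s1.2) (lt_min_iff.1 t2).1⟩

theorem nochain (L : L1) (H : GH0 M S) (q : ℕ → M.pt) (hq : ∀ n, LL M (q (n + 1)) (q n))
    (hn : ∀ n, q n ∉ Pa M S) : ∃ x, Tendsto q atTop (𝓝 x) := by
  have H' := L.b.gh0_rev H
  obtain ⟨u, u1, -, u3⟩ := (L.b.ll_rev H.st).2 (hq 0)
  obtain ⟨w, w1, -, w3⟩ := L.chain (rev M) H'.st 0 1 u (fun n => q (n + 1)) one_pos u1 u3.symm
    fun n => (L.b.ll_rev H.st).2 (hq (n + 1))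
  have e : (fun t : ℝ => 1 + 1 - t) ⁻¹' Ico 0 (1 + 1) = Ioc 0 2 := by
    ext t; simp only [mem_preimage, mem_Ico, mem_Ioc]
    constructor <;> intro h <;> constructor <;> linarith [h.1, h.2]
  have v := (L.b.cv_rev H.st (1 + 1)).1 w1
  rw [e] at v
  have p : ∀ n : ℕ, (0 : ℝ) < (1 / 2) ^ n := fun n => by positivity
  have z : Tendsto (fun n : ℕ => (1 / 2 : ℝ) ^ n) atTop (𝓝 0) :=
    tendsto_pow_atTop_nhds_zero_of_lt_one (by norm_num) (by norm_num)
  by_contra! n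
  obtain ⟨t, t1, t2⟩ := nopast L H 0 2 _ two_pos v fun x _ h => n x <|
    (tendsto_add_atTop_iff_nat 1).1 <|
      (h.comp (tendsto_nhdsWithin_iff.2 ⟨z, .of_forall p⟩)).congr w3
  obtain ⟨k, hk⟩ := (z.eventually (gt_mem_nhds t1.1)).exists
  have := L.b.ll_cv H.st v (Icc_subset_Ioc_left (p k) |>.trans (Ioc_subset_Ioc_right t1.2)) hk
  exact hn (k + 1) (w3 k ▸ L.pa_dn H.st t2 this)

theorem gone (L : L1) : GONE := fun _ _ H =>
  ⟨cau L.b H, ext L H, achr L H, tri L H, nopast L H, nochain L H⟩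

end Vale.Agent.P354CB55
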