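import Vale.Agent.P354CB.Ez

/-!
The first jet of an isometry along a short segment.
-/

open scoped ContDiff
open Set Filter Topology

namespace Vale.Agent.P354CB55

open Vale.Agent.P354n
open Vale.Agent.P354CB

theorem js (K : LK3) : JS := by
  intro k hk
  have k0 : 0 < k := one_pos.trans_le hk
  refine ⟨1 / (13 * k), by positivity, ?_⟩
  intro g D Xf g' D' Xf' h h' F z v m m' s hv hs hm h2 H t ht
  have kv : k * ‖v‖ ≤ 1 / 13 := by
    rw [le_div_iff₀ (by positivity)] at hv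
    linarith
  have l : ∀ τ : ℝ, HasDerivAt (fun τ : ℝ => z + τ • v) v τ := fun τ => by
    simpa using ((hasDerivAt_id τ).smul_const v).const_add z
  have sm : ∀ τ ∈ Icc 0 t, ContDiffAt ℝ ∞ F (z + τ • v) := fun τ a =>
    (H τ ⟨a.1, a.2.trans_lt ht.2⟩).1.self_of_nhds.2.2.1
  have dP : ∀ τ ∈ Icc 0 t, HasDerivAt (fun τ : ℝ => m'.comp (fderiv ℝ F (z + τ • v)))
      (m'.comp (fderiv ℝ (fderiv ℝ F) (z + τ • v) v)) τ := fun τ a => by
    have d : DifferentiableAt ℝ (fderiv ℝ F) (z + τ • v) :=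
      ((sm τ a).fderiv_right (m := 1) (WithTop.coe_le_coe.2 (le_top (a := ((1 + 1 : ℕ) : ℕ∞))))).differentiableAt one_ne_zero
    exact (ContinuousLinearMap.compL ℝ R4 R4 R4 m').hasFDerivAt.comp_hasDerivAt τ
      (d.hasFDerivAt.comp_hasDerivAt τ (l τ))
  have bP : ∀ τ ∈ Ico 0 t, ‖m'.comp (fderiv ℝ F (z + τ • v))‖ ≤ 3 →
      ‖m'.comp (fderiv ℝ (fderiv ℝ F) (z + τ • v) v)‖ ≤ 12 / 13 := fun τ a n => by
    obtain ⟨e, ⟨G, c, b⟩, G', c', b'⟩ := H τ ⟨a.1, a.2.trans ht.2⟩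
    refine ContinuousLinearMap.opNorm_le_bound _ (by norm_num) fun w => ?_
    generalize hP : m'.comp (fderiv ℝ F (z + τ • v)) = P at n
    have eP : ∀ u, m' (fderiv ℝ F (z + τ • v) u) = P u := fun u => by rw [← hP]; rfl
    have nP : ∀ u, ‖P u‖ ≤ 3 * ‖u‖ := fun u =>
      (P.le_opNorm u).trans (mul_le_mul_of_nonneg_right n (norm_nonneg u))
    have b1 : ‖G (z + τ • v) v w‖ ≤ k * ‖v‖ * ‖w‖ := b v w
    have b2 := b' (P v) (P w)
    rw [← eP, ← eP, (hm _).2, (hm _).2, eP, eP] at b2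
    rw [ContinuousLinearMap.comp_apply, K.je h h' e c c', map_sub, eP]
    have w0 := norm_nonneg w
    have b3 : k * ‖P v‖ * ‖P w‖ ≤ k * (3 * ‖v‖) * (3 * ‖w‖) :=
      mul_le_mul (mul_le_mul_of_nonneg_left (nP v) k0.le) (nP w) (norm_nonneg _) (by positivity)
    have b4 := mul_le_mul_of_nonneg_right kv w0
    refine (norm_sub_le _ _).trans ?_
    linarith [nP (G (z + τ • v) v w)]
  have t1 : t ≤ 1 := ht.2.le.trans hs
  have P3 : ∀ τ ∈ Icc 0 t, ‖m'.comp (fderiv ℝ F (z + τ • v))‖ ≤ 2 + τ := fun τ a =>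
    image_norm_le_of_norm_deriv_right_lt_deriv_boundary
      (f := fun τ : ℝ => m'.comp (fderiv ℝ F (z + τ • v))) (B := fun τ => 2 + τ) (B' := fun _ => 1)
      (fun τ a => (dP τ a).continuousAt.continuousWithinAt)
      (fun τ a => (dP τ (Ico_subset_Icc_self a)).hasDerivWithinAt) (by simpa using h2)
      (fun τ => (hasDerivAt_id τ).const_add 2)
      (fun τ a e => (bP τ a (e.le.trans (by linarith [a.2]))).trans_lt (by norm_num)) a
  have dQ : ∀ τ ∈ Icc 0 t, HasDerivWithinAt (fun τ : ℝ => m' (F (z + τ • v)))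
      (m' (fderiv ℝ F (z + τ • v) v)) (Icc 0 t) τ := fun τ a =>
    (m'.hasFDerivAt.comp_hasDerivAt τ
      (((sm τ a).differentiableAt (by simp)).hasFDerivAt.comp_hasDerivAt τ (l τ))).hasDerivWithinAt
  have := norm_image_sub_le_of_norm_deriv_le_segment' (C := 3 * ‖v‖) dQ (fun τ a =>
    ((m'.comp (fderiv ℝ F (z + τ • v))).le_opNorm v).trans (mul_le_mul_of_nonneg_right
      ((P3 τ (Ico_subset_Icc_self a)).trans (by linarith [a.2])) (norm_nonneg v))) t
    (right_mem_Icc.2 ht.1)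
  rw [zero_smul, add_zero, ← map_sub, sub_zero] at this
  refine this.trans ?_
  rw [le_div_iff₀ (by positivity)]
  nlinarith [mul_le_mul_of_nonneg_left t1 (mul_nonneg k0.le (norm_nonneg v))]

end Vale.Agent.P354CB55
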